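import Vale.Agent.P254.H657.EqMain
import Vale.Agent.P254.H325.E0
import Vale.Agent.P248.H656.EqBody

/-!
# The final assembly

From a profile `F` whose pointwise inequality `(P)` holds (`StX F`), a `WProfile F`, and the two
asymptotic facts `p(x)^3 ≤ 4 (1 - (2-δ) x)^3`, `w(x) ≥ (1-δ) x` near `x = 0`, we get the strong
isotropic constant conjecture with its equality case (P254, first question) and the strong Mahler
conjecture with its equality case (P248, second question).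
-/

set_option autoImplicit false

noncomputable section

open MeasureTheory Matrix
open scoped BigOperators

namespace Vale.Agent.P254.Eq657
open Vale.Agent.P254 Vale.Agent.P254.L Vale.Agent.P254.X

/-- **P254, first question, in full** -/
theorem isoConst_full {F : Profile} (W : WProfile F) (hX : StX F)
    (hp : ∀ δ : ℝ, 0 < δ → ∃ x0 : ℝ, 0 < x0 ∧ ∀ x, 0 < x → x ≤ x0 →
      F.p x ^ 3 ≤ 4 * (1 - (2 - δ) * x) ^ 3)
    (hw : ∀ δ : ℝ, 0 < δ → ∃ x0 : ℝ, 0 < x0 ∧ ∀ x, 0 < x → x ≤ x0 → (1 - δ) * x ≤ W.w x)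
    (n : ℕ) (hn : 1 ≤ n) (K S : Set (Fin n → ℝ)) (hK : IsConvexBody K) (hS : IsSimplex S) :
    isoConst K ≤ isoConst S ∧ (isoConst K = isoConst S → IsSimplex K) :=
  ⟨Z325.isoConst_le W hX hn hK hS,
    isSimplex_of_eq (Z325.smallP hX hp) (Z325.smallZ W hX hw) n K S hn hK hS⟩

end Vale.Agent.P254.Eq657

namespace Vale.Agent.P248.H657
open Vale.Agent.P254.L
open Vale.Agent.P248.H432 (E)

/-- **P248, second question, in full** -/
theorem mahler_full {F : Profile} (W : WProfile F) (hX : StX F)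
    (hp : ∀ δ : ℝ, 0 < δ → ∃ x0 : ℝ, 0 < x0 ∧ ∀ x, 0 < x → x ≤ x0 →
      F.p x ^ 3 ≤ 4 * (1 - (2 - δ) * x) ^ 3)
    (hw : ∀ δ : ℝ, 0 < δ → ∃ x0 : ℝ, 0 < x0 ∧ ∀ x, 0 < x → x ≤ x0 → (1 - δ) * x ≤ W.w x)
    {n : ℕ} {K : Set (E n)} (hK : IsConvexBody K) : H432.MahlerFor K :=
  H656.mahlerFor (Vale.Agent.P254.Z325.niceDDL0 W hX (n + 1))
    (fun hn K S hK hS h => Vale.Agent.P254.Eq657.isSimplex_of_eq
      (Vale.Agent.P254.Z325.smallP hX hp) (Vale.Agent.P254.Z325.smallZ W hX hw) n K S hn hK hS h)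
    hK

end Vale.Agent.P248.H657
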