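import Vale.Agent.P254.Bdl.B12
import Vale.Agent.P254.Bdl.B3

/-!
P254 / P248: EQUALITY CASE of the sharp entropic inequality (helper657).  Interface.

Notation: `limDens B c C = 1_C exp (⟨c,x⟩ - ⟨x,Bx⟩/2)`, `Ef f φ` expectation, `covF f` covariance,
`DD f = h(f) - ½ log det Cov(f) - n`, all from `R304` (Bdl/B12); `T3 f` third cumulant.
-/

open MeasureTheory Set Matrix Filter Topology

namespace Vale.Agent.P254.Eq657

open R304
open L (Mat Ten NN frT Vec)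

variable {n : ℕ}

/-- third cumulant of the (unnormalised) density `f` -/
noncomputable def T3 (f : (Fin n → ℝ) → ℝ) : Ten n := fun i j k =>
  Ef f (fun x => x i * x j * x k) - Ef f (fun x => x i * x j) * Ef f (fun x => x k)
    - Ef f (fun x => x i * x k) * Ef f (fun x => x j)
    - Ef f (fun x => x j * x k) * Ef f (fun x => x i)
    + 2 * (Ef f (fun x => x i) * Ef f (fun x => x j) * Ef f (fun x => x k))

/-- slice of a 3-tensor -/
def slice (T : Ten n) (a : Fin n) : Mat n := Matrix.of fun i j => T a i j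

/-- closed convex set with nonempty interior on which `⟨c,x⟩` decays -/
structure Adm (C : Set (Fin n → ℝ)) (c : Fin n → ℝ) (a b : ℝ) : Prop where
  closed : IsClosed C
  convex : Convex ℝ C
  int : (interior C).Nonempty
  ha : 0 < a
  dec : ∀ y ∈ C, c ⬝ᵥ y ≤ b - a * ‖y‖

/-! ### E0: output of the sharp theory for small `B = t • 1`, nice measures -/

/-- `(P)` for nice measures, `B = t • 1`, `t` small: uses `StX F` and
`p x ≤ 4^(1/3) (1 - (2-δ) x)` for small `x` -/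
def SmallP : Prop := ∀ (n : ℕ) (δ : ℝ), 0 < δ → ∃ x0 : ℝ, 0 < x0 ∧
  ∀ (K : Set (Fin n → ℝ)), IsCompact K → StrictConvex ℝ K → (interior K).Nonempty →
  ∀ ε m : ℝ, 0 < ε → 0 < m → ∀ t : ℝ, 0 < t → ∀ c : Fin n → ℝ,
    (x0 • (1 : Mat n) - t • covF (fun x => tilt (t • 1) c x * nice K ε m x)).PosSemidef →
    ∀ P : Mat n, P.PosSemidef →
      NN P (T3 fun x => tilt (t • 1) c x * nice K ε m x)
          (T3 fun x => tilt (t • 1) c x * nice K ε m x) ≤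
        4 * (((covF (fun x => tilt (t • 1) c x * nice K ε m x)
          - ((2 - δ) * t) • (covF (fun x => tilt (t • 1) c x * nice K ε m x)
            * covF (fun x => tilt (t • 1) c x * nice K ε m x))) * P) ^ 3).trace

/-- `D ≥ ∑ w (β_i)` for nice measures, `B = t • 1`, `t` small, `w x ≥ (1-δ) x` for small `x` -/
def SmallZ : Prop := ∀ (n : ℕ) (δ : ℝ), 0 < δ → ∃ x0 : ℝ, 0 < x0 ∧
  ∀ (K : Set (Fin n → ℝ)), IsCompact K → StrictConvex ℝ K → (interior K).Nonempty →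
  ∀ ε m : ℝ, 0 < ε → 0 < m → ∀ t : ℝ, 0 < t → ∀ c : Fin n → ℝ,
    (x0 • (1 : Mat n) - t • covF (fun x => tilt (t • 1) c x * nice K ε m x)).PosSemidef →
      (1 - δ) * t * (covF (fun x => tilt (t • 1) c x * nice K ε m x)).trace ≤
        DD (fun x => tilt (t • 1) c x * nice K ε m x)

/-! ### E1: the same for `limDens (t • 1) c C` -/

/-- (E1-P) -/
def LimP (n : ℕ) : Prop := ∀ δ : ℝ, 0 < δ → ∃ x0 : ℝ, 0 < x0 ∧
  ∀ (C : Set (Fin n → ℝ)) (c : Fin n → ℝ) (a b : ℝ), Adm C c a b → ∀ t : ℝ, 0 < t →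
    (x0 • (1 : Mat n) - t • covF (limDens (t • 1) c C)).PosSemidef →
    ∀ P : Mat n, P.PosSemidef →
      NN P (T3 (limDens (t • 1) c C)) (T3 (limDens (t • 1) c C)) ≤
        4 * (((covF (limDens (t • 1) c C) - ((2 - δ) * t) • (covF (limDens (t • 1) c C)
            * covF (limDens (t • 1) c C))) * P) ^ 3).trace

/-- (E1-Z) -/
def LimZ (n : ℕ) : Prop := ∀ δ : ℝ, 0 < δ → ∃ x0 : ℝ, 0 < x0 ∧
  ∀ (C : Set (Fin n → ℝ)) (c : Fin n → ℝ) (a b : ℝ), Adm C c a b → ∀ t : ℝ, 0 < t →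
    (x0 • (1 : Mat n) - t • covF (limDens (t • 1) c C)).PosSemidef →
      (1 - δ) * t * (covF (limDens (t • 1) c C)).trace ≤ DD (limDens (t • 1) c C)

def StmtE1 : Prop := (SmallP → ∀ n, LimP n) ∧ (SmallZ → ∀ n, LimZ n)

/-! ### E2: the local computation at `B = 0` -/

/-- normalised equality case: `Cov = 1`, mean `0`, `D = 0` -/
structure Norm (C : Set (Fin n → ℝ)) (c : Fin n → ℝ) : Prop where
  mean : ∀ i, Ef (limDens 0 c C) (fun x => x i) = 0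
  cov : covF (limDens 0 c C) = 1
  dd : DD (limDens 0 c C) = 0

/-- the second cumulant flow: `4 n ≤ ‖T‖²`, from (E1-Z) -/
def StmtE2Z : Prop := ∀ n : ℕ, LimZ n → ∀ (C : Set (Fin n → ℝ)) (c : Fin n → ℝ) (a b : ℝ),
  Adm C c a b → Norm C c → 4 * (n : ℝ) ≤ ∑ i, ∑ j, ∑ k, T3 (limDens 0 c C) i j k ^ 2

/-- `(P)` at `B = 0`, from (E1-P) and `t → 0` -/
def StmtE2P : Prop := ∀ n : ℕ, LimP n → ∀ (C : Set (Fin n → ℝ)) (c : Fin n → ℝ) (a b : ℝ),
  Adm C c a b → covF (limDens 0 c C) = 1 → ∀ P : Mat n, P.PosSemidef →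
    NN P (T3 (limDens 0 c C)) (T3 (limDens 0 c C)) ≤ 4 * (P ^ 3).trace

/-- the slices commute -/
def StmtE2 : Prop := ∀ n : ℕ, LimP n → LimZ n →
  ∀ (C : Set (Fin n → ℝ)) (c : Fin n → ℝ) (a b : ℝ), Adm C c a b → Norm C c →
    ∀ i j, slice (T3 (limDens 0 c C)) i * slice (T3 (limDens 0 c C)) j =
      slice (T3 (limDens 0 c C)) j * slice (T3 (limDens 0 c C)) i

/-! ### E3: linear algebra -/

/-- commuting slices, `⟨T_a, T_b⟩ = 4 δ_ab` and `T(e,e,e)² ≤ 4` for unit vectors: in an orthonormal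
frame `O` (rows) `T = 2 ∑ e_i ⊗ e_i ⊗ e_i` -/
def StmtE3 : Prop := ∀ (n : ℕ) (T : Ten n), L.TSymm T →
  (∀ i j, slice T i * slice T j = slice T j * slice T i) →
  (∀ i j, (slice T i * slice T j).trace = if i = j then 4 else 0) →
  (∀ e : Fin n → ℝ, e ⬝ᵥ e = 1 → (∑ i, ∑ j, ∑ k, e i * e j * e k * T i j k) ^ 2 ≤ 4) →
  ∃ O : Mat n, O * Oᵀ = 1 ∧ ∀ i j k, frT O T i j k = if i = j ∧ j = k then 2 else 0

/-! ### E4: one-dimensional rigidity -/

/-- a log-concave variable `⟨e,x⟩` with mean `0`, variance `1`, third moment `2` is `≥ -1` -/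
def StmtE4 : Prop := ∀ (n : ℕ) (C : Set (Fin n → ℝ)) (c : Fin n → ℝ) (a b : ℝ), Adm C c a b →
  ∀ e : Fin n → ℝ, Ef (limDens 0 c C) (fun x => e ⬝ᵥ x) = 0 →
    Ef (limDens 0 c C) (fun x => (e ⬝ᵥ x) ^ 2) = 1 →
    Ef (limDens 0 c C) (fun x => (e ⬝ᵥ x) ^ 3) = 2 → ∀ x ∈ C, -1 ≤ e ⬝ᵥ x

/-! ### E5: the last step -/

/-- `C` lies in the orthant `{O x ≥ -1}`, `D = 0`, mean `0`, `Cov = 1`: `C` is the orthant.
(Proof: `Z = e^n`; relative entropy with respect to `exp (- ∑ ((O x) i + 1))` on the orthant is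
`0`.) -/
def StmtE5 : Prop := ∀ (n : ℕ) (C : Set (Fin n → ℝ)) (c : Fin n → ℝ) (a b : ℝ), Adm C c a b →
  Norm C c → ∀ O : Mat n, O * Oᵀ = 1 → (∀ x ∈ C, ∀ i, -1 ≤ (O *ᵥ x) i) →
    C = {x | ∀ i, -1 ≤ (O *ᵥ x) i}

/-- **equality case, general position**: `D (1_C e^{⟨c,x⟩}) = 0` only if `C` is a simplicial cone
(translated) -/
def StmtEq : Prop := ∀ (n : ℕ) (C : Set (Fin n → ℝ)) (c : Fin n → ℝ) (a b : ℝ), Adm C c a b →
  DD (limDens 0 c C) = 0 → ∃ (A : Mat n) (v : Fin n → ℝ), A.det ≠ 0 ∧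
    C = {x | ∀ i, 0 ≤ (A *ᵥ x + v) i}

/-- E6: reduction of `StmtEq` to the normalised position (affine change of variables) -/
def StmtE6 : Prop := (∀ (n : ℕ) (C : Set (Fin n → ℝ)) (c : Fin n → ℝ) (a b : ℝ), Adm C c a b →
    Norm C c → ∃ (A : Mat n) (v : Fin n → ℝ), A.det ≠ 0 ∧ C = {x | ∀ i, 0 ≤ (A *ᵥ x + v) i}) →
  StmtEq

/-- E7: the equality case for bodies -/
def StmtE7 : Prop := StmtEq → ∀ (n : ℕ) (K S : Set (Fin n → ℝ)), 1 ≤ n → IsConvexBody K →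
  IsSimplex S → isoConst K = isoConst S → IsSimplex K

end Vale.Agent.P254.Eq657
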